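import Vale.Agent.P156.H943.LL
import Vale.Agent.P156.B.C5

/-! Part C assembled: the star local laws `SpecLL` and `SpecFix`, with no hypothesis left. -/

open MeasureTheory Filter Topology Matrix Finset

namespace Vale.Agent.P156.H943

open _root_.P156.H613 (zz)

/-- `C (L)^{-κ} ≤ ε` for large `L`. -/
theorem exists_rpow_small (C ε κ : ℝ) (hκ : 0 < κ) (hε : 0 < ε) :
    ∃ L₀ : ℝ, ∀ L ≥ L₀, C * L ^ (-κ) ≤ ε := by
  have h : Tendsto (fun L : ℝ => C * L ^ (-κ)) atTop (𝓝 (C * 0)) :=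
    (tendsto_rpow_neg_atTop hκ).const_mul C
  rw [mul_zero] at h
  obtain ⟨L₀, hL⟩ := (h.eventually (gt_mem_nhds hε)).exists_forall_of_atTop
  exact ⟨L₀, fun L hL' => (hL L hL').le⟩

theorem eventually_LdivN (d : ℕ) {L : ℝ} (hL : 1 ≤ L) :
    ∀ᶠ n : ℕ in admissible d, 0 < n ∧ 1 / (n : ℝ) ≤ L / n ∧ L / n ≤ 1 ∧ (n : ℝ) * (L / n) = L := by
  have h : ∀ᶠ n : ℕ in atTop, 0 < n ∧ L ≤ n := by
    filter_upwards [eventually_gt_atTop 0,
      tendsto_natCast_atTop_atTop.eventually_ge_atTop L] with n h1 h2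
    exact ⟨h1, h2⟩
  filter_upwards [eventually_admissible (d := d) h] with n hn
  obtain ⟨-, -, hn0, hLn⟩ := hn
  have hn' : (0 : ℝ) < n := by exact_mod_cast hn0
  refine ⟨hn0, by gcongr, (div_le_one hn').2 hLn, by field_simp⟩

theorem c5LL {d : ℕ} (hd : 3 ≤ d) : C5LL d := by
  intro a b hab
  obtain ⟨C, hC⟩ := B.C5 (d := d) (by omega) hab.1.le
  refine ⟨1 / 8, by norm_num, |C|, abs_nonneg _, fun n hn _ η h1 h2 F hF _ => ?_⟩
  have h := hC n (by omega) η h1 h2 F hF
  refine h.trans ?_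
  have h3 : (0 : ℝ) ≤ ((n : ℝ) * η) ^ (-(1 / 8 : ℝ)) := by
    have hn0 : (0 : ℝ) < n := by exact_mod_cast (by omega : 0 < n)
    have : 0 < η := lt_of_lt_of_le (by positivity) h1
    positivity
  calc C * ((n : ℝ) * η) ^ (-(1 / 8 : ℝ)) ≤ |C| * ((n : ℝ) * η) ^ (-(1 / 8 : ℝ)) :=
        mul_le_mul_of_nonneg_right (le_abs_self C) h3
    _ ≤ _ := by
        apply mul_le_mul_of_nonneg_left _ (abs_nonneg _)
        have : (0 : ℝ) ≤ 1 / n := by positivity
        linarith

theorem c5Fix {d : ℕ} (hd : 3 ≤ d) : C5Fix d := by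
  intro z hz ε hε
  filter_upwards [eventually_admissible (d := d) (B.C5fix (d := d) (by omega) hz hε)] with n hn
  exact hn.2.2

theorem offLL (d : ℕ) : OffLL d := by
  intro a b hab K x y hxy ε hε
  obtain ⟨C, hC⟩ := B.C3 d K hab.1.le
  obtain ⟨L₀, hL₀⟩ := exists_rpow_small C ε (1 / 4) (by norm_num) hε
  refine ⟨max 1 L₀, fun L hL => ?_⟩
  filter_upwards [eventually_LdivN d (le_trans (le_max_left _ _) hL)] with n hn
  have h := hC n hn.1 (L / n) hn.2.1 hn.2.2.1 x y hxy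
  rw [hn.2.2.2] at h
  exact h.trans (hL₀ L (le_trans (le_max_right _ _) hL))

theorem stabLL (d : ℕ) : StabLL d := by
  intro a b hab K x ε hε
  obtain ⟨C, hC⟩ := B.C4 d K hab.1.le
  obtain ⟨L₀, hL₀⟩ := exists_rpow_small C ε (1 / 4) (by norm_num) hε
  refine ⟨max 1 L₀, fun L hL => ?_⟩
  filter_upwards [eventually_LdivN d (le_trans (le_max_left _ _) hL)] with n hn
  have h := hC n hn.1 (L / n) hn.2.1 hn.2.2.1 x.1 x.2
  rw [hn.2.2.2] at h
  exact h.trans (hL₀ L (le_trans (le_max_right _ _) hL))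

theorem offFix (d : ℕ) : OffFix d := by
  intro z hz K x y hxy ε hε
  filter_upwards [eventually_admissible (d := d) (B.C3fix d K hz hε)] with n hn
  exact hn.2.2 x y hxy

theorem stabFix (d : ℕ) : StabFix d := by
  intro z hz K x ε hε
  filter_upwards [eventually_admissible (d := d) (B.C4fix d K hz hε)] with n hn
  exact hn.2.2 x.1 x.2

theorem marg (d : ℕ) : Marg d := by
  intro n hn _ K j k Φ
  exact B.avg_WW_edge (by omega) j k Φ

theorem outLL {d : ℕ} (hd : 3 ≤ d) : OutLL d := outLL_of hd (c5LL hd)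

theorem outFix {d : ℕ} (hd : 3 ≤ d) (P : ℝ → Prop) : OutFix d P := outFix_of hd (c5Fix hd) P

/-- **Part C**: the star local law at the microscopic scale, averaged over the energy. -/
theorem specLL {d : ℕ} (hd : 3 ≤ d) : SpecLL d :=
  H520.specLL_of' hd (B.specZW d) (offLL d) (stabLL d) (outLL hd) (marg d)

/-- **Part C**: the star local law at a fixed spectral parameter. -/
theorem specFix {d : ℕ} (hd : 3 ≤ d) : SpecFix d :=
  H520.specFix_of hd (B.specZW d) (offFix d) (stabFix d) (outFix hd _) (marg d)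

end Vale.Agent.P156.H943
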