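import Mathlib

/-! Choice of the parameters in the soft local law (pure real analysis). -/

open Filter Topology

namespace Vale.Agent.P156.H943

theorem tendsto_log_div {η₀ L : ℝ} (hη₀ : 0 < η₀) (hL : 0 < L) :
    Tendsto (fun n : ℕ => Real.log (η₀ / (L / n)) / n) atTop (𝓝 0) := by
  have h1 : Tendsto (fun x : ℝ => Real.log x / x) atTop (𝓝 0) :=
    Real.isLittleO_log_id_atTop.tendsto_div_nhds_zero
  have h2 : Tendsto (fun n : ℕ => (η₀ / L) * (n : ℝ)) atTop atTop :=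
    tendsto_natCast_atTop_atTop.const_mul_atTop (by positivity)
  have h3 := (h1.comp h2).const_mul (η₀ / L)
  rw [mul_zero] at h3
  refine h3.congr fun n => ?_
  simp only [Function.comp]
  have e1 : η₀ / (L / n) = (η₀ / L) * n := by
    rw [div_div_eq_mul_div, div_mul_eq_mul_div]
  rw [e1]
  have : η₀ / L ≠ 0 := by positivity
  rcases eq_or_ne (n : ℝ) 0 with hn | hn
  · simp [hn]
  · field_simp

theorem tendsto_rpow_neg_nat {η₀ κ : ℝ} (hη₀ : 0 < η₀) (hκ : 0 < κ) :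
    Tendsto (fun n : ℕ => ((n : ℝ) * η₀) ^ (-κ)) atTop (𝓝 0) := by
  have h2 : Tendsto (fun n : ℕ => (n : ℝ) * η₀) atTop atTop :=
    tendsto_natCast_atTop_atTop.atTop_mul_const hη₀
  exact (tendsto_rpow_neg_atTop hκ).comp h2

theorem choice {X Kc A ℓ c C Cs κ ηs r ε : ℝ} (hX : 0 < X) (hKc : 0 < Kc) (hA : 0 < A)
    (hℓ : 0 < ℓ) (hc : 0 < c) (hκ : 0 < κ) (hηs : 0 < ηs) (hε : 0 < ε) (C8 : ℝ → ℝ) :
    ∃ δ₂ > 0, ∃ δ > 0, ∃ η₀ > 0, η₀ ≤ ηs ∧ η₀ ≤ 1 ∧ ∃ δ' > 0, ∃ L₀ ≥ (1 : ℝ), ∀ L ≥ L₀,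
      ∀ᶠ n : ℕ in atTop, r * (L / n) ≤ η₀ ∧
        ℓ * (X * δ₂ + X / δ₂ * (Kc * (δ + (L / n) ^ 2 + A * (C8 η₀ * δ' + (η₀ / c) ^ 2)))) +
        X / δ₂ * (Kc * (1 / δ + 1)) * (3 * (C * (Cs * L ^ (-κ)) +
          C * (Cs * (Real.log (η₀ / (L / n)) / n)))) +
        X / δ₂ * (Kc * A * |C8 η₀| / δ') * (C * (((n : ℝ) * η₀) ^ (-κ) + 1 / n)) ≤ ε := by
  set δ₂ : ℝ := ε / (6 * ℓ * X) with hδ₂
  have p1 : 0 < δ₂ := by positivity
  set P : ℝ := X / δ₂ with hP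
  have p2 : 0 < P := by positivity
  set δ : ℝ := ε / (6 * ℓ * P * Kc) with hδ
  have p3 : 0 < δ := by positivity
  set η₀ : ℝ := min (min ηs 1) (c * Real.sqrt (ε / (6 * ℓ * P * Kc * A))) with hη₀
  have p4 : 0 < η₀ := by
    refine lt_min (lt_min hηs one_pos) ?_
    positivity
  set δ' : ℝ := ε / (6 * ℓ * P * Kc * A * (|C8 η₀| + 1)) with hδ'
  have p5 : 0 < δ' := by positivity
  set M : ℝ := P * (Kc * (1 / δ + 1)) * (3 * (C * Cs)) with hM
  have t1 : Tendsto (fun L : ℝ => M * L ^ (-κ)) atTop (𝓝 0) := by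
    have := (tendsto_rpow_neg_atTop hκ).const_mul M
    rwa [mul_zero] at this
  obtain ⟨L₁, hL₁⟩ := eventually_atTop.1 (t1.eventually (gt_mem_nhds (show (0 : ℝ) < ε / 6 by positivity)))
  refine ⟨δ₂, p1, δ, p3, η₀, p4, (min_le_left _ _).trans (min_le_left _ _),
    (min_le_left _ _).trans (min_le_right _ _), δ', p5, max 1 L₁, le_max_left _ _, ?_⟩
  intro L hL
  have hL1 : 1 ≤ L := (le_max_left _ _).trans hL
  have hL0 : 0 < L := by linarith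
  have h5 := hL₁ L ((le_max_right _ _).trans hL)
  have h1 : ℓ * (X * δ₂) = ε / 6 := by rw [hδ₂]; field_simp
  have h2 : ℓ * P * Kc * δ = ε / 6 := by
    rw [hδ]; field_simp
  have h3 : ℓ * P * Kc * A * (η₀ / c) ^ 2 ≤ ε / 6 := by
    have e1 : η₀ / c ≤ Real.sqrt (ε / (6 * ℓ * P * Kc * A)) := by
      rw [div_le_iff₀ hc, mul_comm]
      exact min_le_right _ _
    have e2 : (η₀ / c) ^ 2 ≤ ε / (6 * ℓ * P * Kc * A) := by
      calc (η₀ / c) ^ 2 ≤ (Real.sqrt (ε / (6 * ℓ * P * Kc * A))) ^ 2 := by gcongr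
        _ = _ := Real.sq_sqrt (by positivity)
    calc ℓ * P * Kc * A * (η₀ / c) ^ 2 ≤ ℓ * P * Kc * A * (ε / (6 * ℓ * P * Kc * A)) := by gcongr
      _ = ε / 6 := by field_simp
  have h4 : ℓ * P * Kc * A * (C8 η₀ * δ') ≤ ε / 6 := by
    have e1 : C8 η₀ * δ' ≤ (|C8 η₀| + 1) * δ' := by
      gcongr
      have := le_abs_self (C8 η₀)
      linarith
    have e3 : 0 < |C8 η₀| + 1 := by positivity
    calc ℓ * P * Kc * A * (C8 η₀ * δ') ≤ ℓ * P * Kc * A * ((|C8 η₀| + 1) * δ') := by gcongr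
      _ = ε / 6 := by rw [hδ']; field_simp
  have t2 : Tendsto (fun n : ℕ => r * (L / n)) atTop (𝓝 0) := by
    have := (tendsto_const_div_atTop_nhds_zero_nat L).const_mul r
    rwa [mul_zero] at this
  have t3 : Tendsto (fun n : ℕ => ℓ * P * Kc * (L / n) ^ 2 +
      P * (Kc * (1 / δ + 1)) * (3 * (C * (Cs * (Real.log (η₀ / (L / n)) / n)))) +
      P * (Kc * A * |C8 η₀| / δ') * (C * (((n : ℝ) * η₀) ^ (-κ) + 1 / n))) atTop (𝓝 0) := by
    have s1 := ((tendsto_const_div_atTop_nhds_zero_nat L).pow 2).const_mul (ℓ * P * Kc)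
    have s2 := (((tendsto_log_div p4 hL0).const_mul Cs).const_mul C).const_mul 3
    have s3 := s2.const_mul (P * (Kc * (1 / δ + 1)))
    have s4 := (((tendsto_rpow_neg_nat p4 hκ).add
      (tendsto_const_div_atTop_nhds_zero_nat (1 : ℝ))).const_mul C).const_mul
      (P * (Kc * A * |C8 η₀| / δ'))
    have := (s1.add s3).add s4
    simpa using this
  filter_upwards [t2.eventually (gt_mem_nhds p4),
    t3.eventually (gt_mem_nhds (show (0 : ℝ) < ε / 6 by positivity))] with n hn1 hn2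
  refine ⟨hn1.le, ?_⟩
  calc _ = ℓ * (X * δ₂) + ℓ * P * Kc * δ + ℓ * P * Kc * A * (η₀ / c) ^ 2 +
        ℓ * P * Kc * A * (C8 η₀ * δ') + M * L ^ (-κ) +
        (ℓ * P * Kc * (L / n) ^ 2 +
      P * (Kc * (1 / δ + 1)) * (3 * (C * (Cs * (Real.log (η₀ / (L / n)) / n)))) +
      P * (Kc * A * |C8 η₀| / δ') * (C * (((n : ℝ) * η₀) ^ (-κ) + 1 / n))) := by
          rw [hM]; ring
    _ ≤ ε := by linarith

end Vale.Agent.P156.H943
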