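import Mathlib

/-! Geometric scales between a macroscopic scale `η₀` and a microscopic scale `s`. -/

open Finset

namespace Vale.Agent.P156.H943

theorem geom_le {a : ℝ} (ha : 0 ≤ a) (ha1 : a < 1) (J : ℕ) :
    ∑ j ∈ range (J + 1), a ^ (J - j) ≤ 1 / (1 - a) := by
  have h := Finset.sum_range_reflect (fun j => a ^ j) (J + 1)
  simp only [Nat.add_sub_cancel] at h
  rw [h, le_div_iff₀ (by linarith), geom_sum_mul_neg]
  have := pow_nonneg ha (J + 1)
  linarith

/-- Scales `η 0 = η₀ > … > η J = s` with ratios in `[1, r]`. -/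
theorem exists_scales {r : ℝ} (hr : 1 < r) {κ : ℝ} (hκ : 0 < κ) :
    ∃ C : ℝ, 0 < C ∧ ∀ η₀ s : ℝ, 0 < s → r * s ≤ η₀ →
      ∃ (J : ℕ) (η : ℕ → ℝ), η 0 = η₀ ∧ η J = s ∧ (∀ j, 0 < η j) ∧
        (∀ j, η (j + 1) ≤ η j ∧ η j ≤ r * η (j + 1)) ∧
        (∀ j, j ≤ J → s ≤ η j ∧ η j ≤ η₀) ∧
        ((J : ℝ) + 1 ≤ C * Real.log (η₀ / s)) ∧
        ∀ N : ℝ, 0 < N → ∑ j ∈ range (J + 1), (N * η j) ^ (-κ) ≤ C * (N * s) ^ (-κ) := by
  have hlr : 0 < Real.log r := Real.log_pos hr
  set a : ℝ := Real.exp (-(κ * (Real.log r / 2))) with ha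
  have ha0 : 0 ≤ a := (Real.exp_pos _).le
  have ha1 : a < 1 := by
    rw [ha, Real.exp_lt_one_iff]
    have : 0 < κ * (Real.log r / 2) := by positivity
    linarith
  refine ⟨1 / (1 - a) + 3 / Real.log r, ?_, ?_⟩
  · have : 0 < 1 / (1 - a) := by
      apply div_pos one_pos; linarith
    positivity
  intro η₀ s hs hrs
  have h0 : 0 < η₀ := lt_of_lt_of_le (mul_pos (by linarith) hs) hrs
  have hx : r ≤ η₀ / s := by rwa [le_div_iff₀ hs]
  have hx1 : 1 < η₀ / s := lt_of_lt_of_le hr hx
  have hlx : Real.log r ≤ Real.log (η₀ / s) := Real.log_le_log (by linarith) hx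
  have hlx0 : 0 < Real.log (η₀ / s) := lt_of_lt_of_le hlr hlx
  set X := Real.log (η₀ / s) with hX
  set J : ℕ := ⌈X / Real.log r⌉₊ with hJ
  have hJ1 : 1 ≤ X / Real.log r := by rw [le_div_iff₀ hlr]; linarith
  have hJ2 : X / Real.log r ≤ J := Nat.le_ceil _
  have hJ0 : (0 : ℝ) < J := by linarith
  have hJ3 : (J : ℝ) ≤ X / Real.log r + 1 := (Nat.ceil_lt_add_one (by linarith)).le
  have hJ4 : (J : ℝ) ≤ 2 * (X / Real.log r) := by linarith
  set t : ℝ := X / J with ht
  have ht1 : t ≤ Real.log r := by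
    rw [ht, div_le_iff₀ hJ0]
    rw [div_le_iff₀ hlr] at hJ2
    linarith
  have ht2 : Real.log r / 2 ≤ t := by
    rw [ht, le_div_iff₀ hJ0]
    have h1 : Real.log r / 2 * (2 * (X / Real.log r)) = X := by field_simp
    calc Real.log r / 2 * J ≤ Real.log r / 2 * (2 * (X / Real.log r)) := by gcongr
      _ = X := h1
  have ht0 : 0 < t := lt_of_lt_of_le (by positivity) ht2
  set η : ℕ → ℝ := fun j => η₀ * Real.exp (-(j * t)) with hη
  have hpos : ∀ j, 0 < η j := fun j => mul_pos h0 (Real.exp_pos _)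
  have hJt : (J : ℝ) * t = X := by rw [ht]; field_simp
  have hend : η J = s := by
    simp only [hη]
    rw [hJt, hX, Real.exp_neg, Real.exp_log (by positivity)]
    field_simp
  have hstep : ∀ j, η j = Real.exp t * η (j + 1) := by
    intro j
    simp only [hη]
    rw [mul_left_comm, ← Real.exp_add]
    congr 2
    push_cast
    ring
  refine ⟨J, η, ?_, hend, hpos, ?_, ?_, ?_, ?_⟩
  · simp [hη]
  · intro j
    rw [hstep j]
    constructor
    · have : 1 ≤ Real.exp t := Real.one_le_exp ht0.le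
      nlinarith [hpos (j + 1)]
    · have : Real.exp t ≤ r := by
        calc Real.exp t ≤ Real.exp (Real.log r) := Real.exp_le_exp.2 ht1
          _ = r := Real.exp_log (by linarith)
      exact mul_le_mul_of_nonneg_right this (hpos _).le
  · intro j hj
    constructor
    · rw [← hend]
      simp only [hη]
      apply mul_le_mul_of_nonneg_left _ h0.le
      apply Real.exp_le_exp.2
      have : (j : ℝ) ≤ J := by exact_mod_cast hj
      nlinarith
    · simp only [hη]
      have : Real.exp (-(j * t)) ≤ 1 := by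
        rw [Real.exp_le_one_iff]
        have : 0 ≤ (j : ℝ) * t := by positivity
        linarith
      nlinarith
  · have h1 : (J : ℝ) + 1 ≤ 3 / Real.log r * X := by
      have : X / Real.log r * 3 = 3 / Real.log r * X := by ring
      linarith
    have h2 : 0 ≤ 1 / (1 - a) * X := by
      apply mul_nonneg _ hlx0.le
      apply div_nonneg zero_le_one; linarith
    nlinarith
  · intro N hN
    have h1 : ∀ j ∈ range (J + 1), (N * η j) ^ (-κ) ≤ (N * s) ^ (-κ) * a ^ (J - j) := by
      intro j hj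
      have hjJ : j ≤ J := Nat.lt_succ_iff.1 (mem_range.1 hj)
      have e1 : η j = s * Real.exp ((J - j : ℕ) * t) := by
        rw [← hend]
        simp only [hη]
        rw [mul_assoc, ← Real.exp_add]
        congr 2
        rw [Nat.cast_sub hjJ]
        ring
      have hNs : 0 < N * s := mul_pos hN hs
      rw [e1, ← mul_assoc, Real.mul_rpow hNs.le (Real.exp_pos _).le]
      apply mul_le_mul_of_nonneg_left _ (Real.rpow_nonneg hNs.le _)
      rw [← Real.exp_mul, ha, ← Real.exp_nat_mul]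
      apply Real.exp_le_exp.2
      have : (0 : ℝ) ≤ (J - j : ℕ) := Nat.cast_nonneg _
      nlinarith [mul_nonneg this hκ.le]
    calc ∑ j ∈ range (J + 1), (N * η j) ^ (-κ)
        ≤ ∑ j ∈ range (J + 1), (N * s) ^ (-κ) * a ^ (J - j) := Finset.sum_le_sum h1
      _ = (N * s) ^ (-κ) * ∑ j ∈ range (J + 1), a ^ (J - j) := by rw [Finset.mul_sum]
      _ ≤ (N * s) ^ (-κ) * (1 / (1 - a)) := by
          apply mul_le_mul_of_nonneg_left (geom_le ha0 ha1 J)
          exact Real.rpow_nonneg (mul_pos hN hs).le _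
      _ ≤ (1 / (1 - a) + 3 / Real.log r) * (N * s) ^ (-κ) := by
          rw [mul_comm]
          apply mul_le_mul_of_nonneg_right _ (Real.rpow_nonneg (mul_pos hN hs).le _)
          have : 0 < 3 / Real.log r := by positivity
          linarith

end Vale.Agent.P156.H943
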