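import Vale.Agent.P156.H943.Point
import Vale.Agent.P156.H943.Scales
import Vale.Agent.P156.H943.Choice
import Vale.Agent.P156.H520.Final

/-! From the quenched recursion (C5) to `OutLL` and `OutFix`. -/

open MeasureTheory Filter Topology Matrix Finset

namespace Vale.Agent.P156.H943

open _root_.P156.H613 (zz zz_im Cls C8F C8c C8F_cls base_T_graph ew_nonneg ew_sum C7_graph
  min_one_norm_sub_le_T C8_graph mz isTree_eq_mz)
open _root_.P156.Gap (T vv TE TF TE_testF TE_measurable scales_output C9' C9'_pos etaStar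
  etaStar_pos deltaStar deltaStar_pos root_mE Root mE_im_lower measurable_mE)
open Vale.Agent.P156.H490 (avg_mono avg_nonneg avg_le_of_le avg_add avg_sub avg_mul_left
  avg_congr abs_avg_le avg_const_le avg_sum)

/-- C5, averaged over the energy. -/
def C5LL (d : ℕ) : Prop :=
  ∀ a b : ℝ, BulkI d a b → ∃ κ : ℝ, 0 < κ ∧ ∃ C : ℝ, 0 ≤ C ∧ ∀ n : ℕ, d < n → Even (n * d) →
    ∀ η : ℝ, 1 / (n : ℝ) ≤ η → η ≤ 1 → ∀ F : ℝ → ℂ → ℝ, (∀ E, TestF 1 1 (F E)) →
      Measurable (Function.uncurry F) →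
      ∫ E in a..b, avg (regularGraphs n d) (fun G => dfct d G (zz E η) (F E) ^ 2) ≤
        C * (((n : ℝ) * η) ^ (-κ) + 1 / n)

/-- C5 at a fixed spectral parameter. -/
def C5Fix (d : ℕ) : Prop :=
  ∀ z : ℂ, 0 < z.im → ∀ ε > 0, ∀ᶠ n in admissible d, ∀ F : ℂ → ℝ, TestF 1 1 F →
    avg (regularGraphs n d) (fun G => dfct d G z F ^ 2) ≤ ε

theorem eventually_admissible {d : ℕ} {P : ℕ → Prop} (h : ∀ᶠ n in atTop, P n) :
    ∀ᶠ n in admissible d, d < n ∧ Even (n * d) ∧ P n := by
  unfold admissible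
  rw [eventually_inf_principal]
  filter_upwards [h] with n hn hn2
  exact ⟨hn2.1, hn2.2, hn⟩

theorem wavg_mono {ι : Type*} [Fintype ι] {p F F' : ι → ℝ} (hp : ∀ i, 0 ≤ p i)
    (h : ∀ i, F i ≤ F' i) : wavg p F ≤ wavg p F' :=
  Finset.sum_le_sum fun i _ => mul_le_mul_of_nonneg_left (h i) (hp i)

theorem wavg_affine {ι : Type*} [Fintype ι] {p F : ι → ℝ} (hp1 : ∑ i, p i = 1) (c0 c1 : ℝ) :
    wavg p (fun i => c0 + c1 * F i) = c0 + c1 * wavg p F := by
  unfold wavg
  simp only [mul_add, Finset.sum_add_distrib, ← Finset.sum_mul, hp1, one_mul]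
  rw [Finset.mul_sum]
  congr 1
  exact Finset.sum_congr rfl fun i _ => by ring

theorem outFix_of {d : ℕ} (hd : 3 ≤ d) (h5 : C5Fix d) (P : ℝ → Prop) : OutFix d P := by
  intro E η _ hη m hm ε hε
  have hz : 0 < ((E : ℂ) + η * Complex.I).im := by simpa using hη
  have hmz : m = mz (d - 1) (zz E η) := isTree_eq_mz (by omega) hz hm
  set R : ℝ := |E| with hRdef
  set K : ℝ := |C8c d η R| + 1 with hK
  have hK0 : 0 < K := by positivity
  set δ : ℝ := ε / 3 with hδ
  have hδ0 : 0 < δ := by positivity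
  set δ' : ℝ := δ * δ / K with hδ'
  have hδ'0 : 0 < δ' := by positivity
  set ε' : ℝ := δ' * (δ * δ / K) with hε'
  have hε'0 : 0 < ε' := by positivity
  have hev := h5 _ hz ε' hε'0
  have hadm : ∀ᶠ n in admissible d, d < n ∧ Even (n * d) ∧ True :=
    eventually_admissible (Eventually.of_forall fun _ => trivial)
  filter_upwards [hev, hadm] with n hn hn2
  have hn0 : n ≠ 0 := by omega
  have hcls := C8F_cls (d := d) (R := R) (by omega) hη (abs_nonneg E)
  have h1 := hn _ (hcls.testF E)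
  have hpt : ∀ G ∈ regularGraphs n d, wavg (ew d G)
      (fun e => min 1 ‖hc G ((E : ℂ) + η * Complex.I) e - m‖) ≤
      (δ + K / δ * δ') + K / δ / δ' * dfct d G (zz E η) (C8F d η R E) ^ 2 := by
    intro G hG
    have hp := ew_nonneg (d := d) G
    have hp1 := ew_sum hG hn0 (by omega : d ≠ 0)
    have s1 : wavg (ew d G) (fun e => min 1 ‖hc G ((E : ℂ) + η * Complex.I) e - m‖) ≤
        wavg (ew d G) (fun e => δ + 1 / δ *
          ‖hc G (zz E η) e - mz (d - 1) (zz E η)‖ ^ 2) := by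
      refine wavg_mono hp fun e => ?_
      rw [hmz]
      refine (min_le_right _ _).trans ?_
      have := abs_le_add_sq (x := ‖hc G (zz E η) e - mz (d - 1) (zz E η)‖) hδ0
      rw [abs_of_nonneg (norm_nonneg _)] at this
      calc _ ≤ _ := this
        _ = _ := by ring
    rw [wavg_affine hp1] at s1
    have s2 := C8_graph (R := R) (by omega) hη hn0 hG (le_refl |E|)
    have s3 := abs_le_add_sq (x := dfct d G (zz E η) (C8F d η R E)) hδ'0
    have s4 : C8c d η R ≤ K := by
      have := le_abs_self (C8c d η R)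
      linarith
    have s5 : wavg (ew d G) (fun e => ‖hc G (zz E η) e - mz (d - 1) (zz E η)‖ ^ 2) ≤
        K * (δ' + dfct d G (zz E η) (C8F d η R E) ^ 2 / δ') := by
      refine s2.trans ?_
      calc C8c d η R * |dfct d G (zz E η) (C8F d η R E)|
          ≤ K * |dfct d G (zz E η) (C8F d η R E)| := by gcongr
        _ ≤ _ := by gcongr
    refine s1.trans ?_
    calc δ + 1 / δ * wavg (ew d G) (fun e => ‖hc G (zz E η) e - mz (d - 1) (zz E η)‖ ^ 2)
        ≤ δ + 1 / δ * (K * (δ' + dfct d G (zz E η) (C8F d η R E) ^ 2 / δ')) := by gcongr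
      _ = _ := by ring
  refine (avg_mono hpt).trans ?_
  rw [avg_add, avg_mul_left]
  have c1 : avg (regularGraphs n d) (fun _ => δ + K / δ * δ') ≤ δ + K / δ * δ' :=
    avg_const_le _ (by positivity)
  have c2 : K / δ * δ' = δ := by rw [hδ']; field_simp
  have c3 : K / δ / δ' * avg (regularGraphs n d)
      (fun G => dfct d G (zz E η) (C8F d η R E) ^ 2) ≤ K / δ / δ' * ε' := by
    gcongr
    exact h1
  have c4 : K / δ / δ' * ε' = δ := by rw [hε']; field_simp
  calc _ ≤ (δ + K / δ * δ') + K / δ / δ' * ε' := add_le_add c1 c3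
    _ = ε := by rw [c2, c4, hδ]; ring

theorem intervalIntegrable_dfct_sq {n d : ℕ} (hd : d ≠ 0) (hn : n ≠ 0) {η : ℝ} (hη : 0 < η)
    {F : ℝ → ℂ → ℝ} (hF : Measurable (Function.uncurry F)) (hF1 : ∀ E, TestF 1 1 (F E))
    (a b : ℝ) :
    IntervalIntegrable (fun E => avg (regularGraphs n d)
      (fun G => dfct d G (zz E η) (F E) ^ 2)) volume a b := by
  refine intervalIntegrable_avg _ (fun G _ => (measurable_dfct hF G hη).pow_const 2)
    (B := 4) (by norm_num) ?_
  intro E _ G hG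
  have h := abs_dfct_le hd hn hG (z := zz E η) (by simpa using hη) (hF1 E).1
  rw [abs_pow]
  calc |dfct d G (zz E η) (F E)| ^ 2 ≤ 2 ^ 2 := by gcongr
    _ = 4 := by norm_num

theorem ii_sum {α : Type*} (s : Finset α) {f : α → ℝ → ℝ} {a b : ℝ}
    (h : ∀ i, IntervalIntegrable (f i) volume a b) :
    IntervalIntegrable (fun E => ∑ i ∈ s, f i E) volume a b := by
  have := IntervalIntegrable.sum s (f := f) (fun i _ => h i)
  simpa [Finset.sum_fn] using this

theorem avg_affine2_le {α : Type*} (s : Finset α) {c0 : ℝ} (h0 : 0 ≤ c0) (c1 c2 : ℝ)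
    (S B : α → ℝ) :
    avg s (fun G => c0 + (c1 * S G + c2 * B G)) ≤ c0 + c1 * avg s S + c2 * avg s B := by
  rw [avg_add, avg_add, avg_mul_left, avg_mul_left, ← add_assoc]
  gcongr
  exact avg_const_le _ h0

theorem outLL_of {d : ℕ} (hd : 3 ≤ d) (h5 : C5LL d) : OutLL d := by
  intro a b hab ε hε
  obtain ⟨κ, hκ, C, hC, h5⟩ := h5 a b hab
  obtain ⟨hablt, ha, hb⟩ := hab
  obtain ⟨c, hc0, hcm⟩ := mE_im_lower (d := d) (by omega) ha hb
  set R : ℝ := 2 * Real.sqrt ((d : ℝ) - 1) with hR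
  have hER : ∀ E ∈ Set.Icc a b, |E| ≤ R := fun E hE =>
    (abs_lt.2 ⟨lt_of_lt_of_le ha hE.1, lt_of_le_of_lt hE.2 hb⟩).le
  have hR0 : 0 ≤ R := by positivity
  have hηs := etaStar_pos (q := d - 1) hc0
  have hδs := deltaStar_pos (q := d - 1) hc0
  obtain ⟨Cs, hCs, hscale⟩ := exists_scales (r := 1 + deltaStar (d - 1) c) (by linarith) hκ
  set X : ℝ := 2 * (((d - 1 : ℕ) : ℝ) + 1) with hX
  have hX0 : 0 < X := by positivity
  have hKc := C9'_pos (d := d) hc0
  have hA := Ab_pos (d := d) hc0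
  obtain ⟨δ₂, hδ₂, δ, hδ, η₀, hη₀, hη₀s, hη₀1, δ', hδ', L₀, hL₀, hL⟩ :=
    choice (X := X) (Kc := C9' d c) (A := Ab d c) (ℓ := b - a) (c := c) (C := C) (Cs := Cs)
      (κ := κ) (ηs := etaStar (d - 1) c) (r := 1 + deltaStar (d - 1) c) (ε := ε)
      hX0 hKc hA (by linarith) hc0 hκ hηs hε (fun η => C8c d η R)
  refine ⟨L₀, fun L hLL => ?_⟩
  have hev := eventually_admissible (d := d) (hL L hLL)
  filter_upwards [hev] with n hn
  obtain ⟨hdn, heven, hr, hfin⟩ := hn
  have hn0 : n ≠ 0 := by omega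
  have hnr : (0 : ℝ) < n := by exact_mod_cast Nat.pos_of_ne_zero hn0
  have hL1 : (1 : ℝ) ≤ L := le_trans hL₀ hLL
  have hs0 : 0 < L / (n : ℝ) := by positivity
  obtain ⟨J, η, hη0, hηJ, hηpos, hηr, hηb, hJ, hsum⟩ := hscale η₀ (L / n) hs0 hr
  have hηge : ∀ j, j ≤ J → 1 / (n : ℝ) ≤ η j := fun j hj =>
    le_trans (by gcongr) (hηb j hj).1
  -- pointwise bound
  set K0 : ℝ := C9' d c * (δ + (L / n) ^ 2 + Ab d c * (C8c d η₀ R * δ' + (η₀ / c) ^ 2)) with hK0
  set K1 : ℝ := C9' d c * (1 / δ + 1) with hK1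
  set K2 : ℝ := C9' d c * Ab d c * |C8c d η₀ R| / δ' with hK2
  have hK1' : 0 < K1 := by positivity
  have hK2' : 0 ≤ K2 := by positivity
  have hC8n : 0 ≤ C8c d η₀ R := by
    unfold _root_.P156.H613.C8c
    have h1 := _root_.P156.H613.Cbd_pos (q := d - 1) (by omega) hη₀ hR0
      (_root_.P156.H613.hlow_pos (d := d) hη₀ hR0)
    positivity
  have hK0' : 0 ≤ K0 := by
    have : 0 ≤ Ab d c * (C8c d η₀ R * δ' + (η₀ / c) ^ 2) := by positivity
    positivity
  have hpt : ∀ E ∈ Set.Icc a b, avg (regularGraphs n d) (fun G => wavg (ew d G)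
      (fun e => min 1 ‖hc G ((E : ℂ) + ((L / n : ℝ) : ℂ) * Complex.I) e - mE d E‖)) ≤
      (X * δ₂ + X / δ₂ * K0) + X / δ₂ * K1 * (∑ j ∈ range (J + 1), ∑ k : Fin 3,
        avg (regularGraphs n d) (fun G => dfct d G (zz E (η j)) (TE d c a b k E) ^ 2)) +
      X / δ₂ * K2 * avg (regularGraphs n d)
        (fun G => dfct d G (zz E η₀) (C8F d η₀ R E) ^ 2) := by
    intro E hE
    have hroot : Root (d - 1) E (mE d E) := root_mE (by omega) (abs_lt.mpr
      ⟨lt_of_lt_of_le ha hE.1, lt_of_le_of_lt hE.2 hb⟩)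
    have hG1 : ∀ G ∈ regularGraphs n d, wavg (ew d G)
        (fun e => min 1 ‖hc G ((E : ℂ) + ((L / n : ℝ) : ℂ) * Complex.I) e - mE d E‖) ≤
        (X * δ₂ + X / δ₂ * K0) + (X / δ₂ * K1 * (∑ j ∈ range (J + 1), ∑ k : Fin 3,
          dfct d G (zz E (η j)) (TE d c a b k E) ^ 2) +
        X / δ₂ * K2 * dfct d G (zz E η₀) (C8F d η₀ R E) ^ 2) := by
      intro G hG
      have hp := ew_nonneg (d := d) G
      have hp1 := ew_sum hG hn0 (by omega : d ≠ 0)
      have key := pointwise hd ha hb hc0 hcm hE (hER E hE) hn0 hG (J := J) (η := η) hηpos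
        (fun j hj => (hηb j hj).2.trans hη₀s) hηr hδ hδ'
      rw [hη0, hηJ] at key
      have hzim : 0 < (zz E (L / n)).im := by simpa using hs0
      have s1 : wavg (ew d G)
          (fun e => min 1 ‖hc G ((E : ℂ) + ((L / n : ℝ) : ℂ) * Complex.I) e - mE d E‖) ≤
          wavg (ew d G) (fun e => X * δ₂ + X / δ₂ *
            ‖T (mE d E) (hc G (zz E (L / n)) e)‖ ^ 2) := by
        refine wavg_mono hp fun e => ?_
        have t1 := min_one_norm_sub_le_T hroot (w := hc G (zz E (L / n)) e)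
          (hc_im_nonneg G hzim e)
        have t2 := abs_le_add_sq (x := ‖T (mE d E) (hc G (zz E (L / n)) e)‖) hδ₂
        rw [abs_of_nonneg (norm_nonneg _)] at t2
        refine t1.trans ?_
        calc 2 * (((d - 1 : ℕ) : ℝ) + 1) * ‖T (mE d E) (hc G (zz E (L / n)) e)‖
            ≤ X * (δ₂ + ‖T (mE d E) (hc G (zz E (L / n)) e)‖ ^ 2 / δ₂) := by
              rw [hX]; gcongr
          _ = _ := by ring
      rw [wavg_affine hp1] at s1
      refine s1.trans ?_
      calc X * δ₂ + X / δ₂ * wavg (ew d G)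
            (fun e => ‖T (mE d E) (hc G (zz E (L / n)) e)‖ ^ 2)
          ≤ X * δ₂ + X / δ₂ * (K0 + K1 * (∑ j ∈ range (J + 1), ∑ k : Fin 3,
          dfct d G (zz E (η j)) (TE d c a b k E) ^ 2) +
            K2 * dfct d G (zz E η₀) (C8F d η₀ R E) ^ 2) := by gcongr
        _ = _ := by ring
    refine (avg_mono hG1).trans ?_
    refine (avg_affine2_le _ (by positivity) _ _ _ _).trans (le_of_eq ?_)
    simp only [avg_sum]
  -- integrability
  have hTE : ∀ k E, TestF 1 1 (TE d c a b k E) := fun k E =>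
    TE_testF (by omega) ha hb hc0 hcm k E
  have hI1 : ∀ j k, IntervalIntegrable (fun E => avg (regularGraphs n d)
      (fun G => dfct d G (zz E (η j)) (TE d c a b k E) ^ 2)) volume a b := fun j k =>
    intervalIntegrable_dfct_sq (by omega) hn0 (hηpos j) (TE_measurable d c a b k) (hTE k) a b
  have hcls := C8F_cls (d := d) (by omega) hη₀ hR0
  have hI2 : IntervalIntegrable (fun E => avg (regularGraphs n d)
      (fun G => dfct d G (zz E η₀) (C8F d η₀ R E) ^ 2)) volume a b :=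
    intervalIntegrable_dfct_sq (by omega) hn0 hη₀ hcls.meas hcls.testF a b
  have hI3 : IntervalIntegrable (fun E => ∑ j ∈ range (J + 1), ∑ k : Fin 3,
      avg (regularGraphs n d) (fun G => dfct d G (zz E (η j)) (TE d c a b k E) ^ 2))
      volume a b := by
    refine ii_sum _ fun j => ?_
    exact ii_sum _ fun k => hI1 j k
  have hI0 : IntervalIntegrable (fun E => avg (regularGraphs n d) (fun G => wavg (ew d G)
      (fun e => min 1 ‖hc G ((E : ℂ) + ((L / n : ℝ) : ℂ) * Complex.I) e - mE d E‖)))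
      volume a b := by
    refine intervalIntegrable_avg _ (fun G _ => ?_) (B := 1) zero_le_one ?_
    · refine measurable_wavg fun e => ?_
      refine Measurable.min measurable_const ?_
      exact ((continuous_hc G e hs0).measurable.sub (measurable_mE d)).norm
    · intro E _ G hG
      refine abs_wavg_le (ew_nonneg G) (ew_sum hG hn0 (by omega : d ≠ 0)) fun e _ => ?_
      rw [abs_of_nonneg (le_min zero_le_one (norm_nonneg _))]
      exact min_le_left _ _
  have hmono := intervalIntegral.integral_mono_on hablt.le hI0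
    ((intervalIntegrable_const.add (hI3.const_mul (X / δ₂ * K1))).add
      (hI2.const_mul (X / δ₂ * K2))) hpt
  refine hmono.trans ?_
  rw [intervalIntegral.integral_add (intervalIntegrable_const.add (hI3.const_mul _))
    (hI2.const_mul _), intervalIntegral.integral_add intervalIntegrable_const (hI3.const_mul _),
    intervalIntegral.integral_const, intervalIntegral.integral_const_mul,
    intervalIntegral.integral_const_mul, intervalIntegral.integral_finsetSum
      (fun j _ => ii_sum _ fun k => hI1 j k)]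
  have hj : ∀ j ∈ range (J + 1), ∫ E in a..b, ∑ k : Fin 3, avg (regularGraphs n d)
      (fun G => dfct d G (zz E (η j)) (TE d c a b k E) ^ 2) ≤
      3 * (C * (((n : ℝ) * η j) ^ (-κ) + 1 / n)) := by
    intro j hj
    have hjJ : j ≤ J := Nat.lt_succ_iff.1 (mem_range.1 hj)
    rw [intervalIntegral.integral_finsetSum (fun k _ => hI1 j k)]
    calc _ ≤ ∑ _k : Fin 3, C * (((n : ℝ) * η j) ^ (-κ) + 1 / n) :=
          Finset.sum_le_sum fun k _ => h5 n hdn heven (η j) (hηge j hjJ)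
            ((hηb j hjJ).2.trans hη₀1) _ (hTE k) (TE_measurable d c a b k)
      _ = _ := by simp
  have hb2 : ∫ E in a..b, avg (regularGraphs n d)
      (fun G => dfct d G (zz E η₀) (C8F d η₀ R E) ^ 2) ≤
      C * (((n : ℝ) * η₀) ^ (-κ) + 1 / n) :=
    h5 n hdn heven η₀ (by rw [← hη0]; exact hηge 0 (Nat.zero_le _)) hη₀1 _ hcls.testF hcls.meas
  have hsum2 : ∑ j ∈ range (J + 1), ∫ E in a..b, ∑ k : Fin 3, avg (regularGraphs n d)
      (fun G => dfct d G (zz E (η j)) (TE d c a b k E) ^ 2) ≤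
      3 * (C * (Cs * L ^ (-κ)) + C * (Cs * (Real.log (η₀ / (L / n)) / n))) := by
    refine (Finset.sum_le_sum hj).trans ?_
    rw [← Finset.mul_sum, ← Finset.mul_sum, Finset.sum_add_distrib, Finset.sum_const,
      Finset.card_range, nsmul_eq_mul]
    have e1 := hsum n hnr
    have e2 : (n : ℝ) * (L / n) = L := by field_simp
    rw [e2] at e1
    have e3 : (((J + 1 : ℕ) : ℝ)) * (1 / (n : ℝ)) ≤ Cs * (Real.log (η₀ / (L / n)) / n) := by
      push_cast
      rw [mul_one_div, ← mul_div_assoc]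
      gcongr
    calc 3 * (C * (∑ j ∈ range (J + 1), ((n : ℝ) * η j) ^ (-κ) +
          (((J + 1 : ℕ) : ℝ)) * (1 / (n : ℝ))))
        ≤ 3 * (C * (Cs * L ^ (-κ) + Cs * (Real.log (η₀ / (L / n)) / n))) := by gcongr
      _ = _ := by ring
  refine le_trans ?_ hfin
  simp only [smul_eq_mul]
  calc _ ≤ (b - a) * (X * δ₂ + X / δ₂ * K0) + X / δ₂ * K1 *
        (3 * (C * (Cs * L ^ (-κ)) + C * (Cs * (Real.log (η₀ / (L / n)) / n)))) +
        X / δ₂ * K2 * (C * (((n : ℝ) * η₀) ^ (-κ) + 1 / n)) := by gcongr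
    _ = _ := by rw [hK0, hK1, hK2]

end Vale.Agent.P156.H943
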