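import Vale.Agent.P156.R2.Defs
import Vale.Agent.P156.H801.Res

/-! Resolvents `resD` of symmetric matrices with deleted vertices: spectral formula, positivity of
the imaginary part, bound, Pick inequality, continuity in the spectral parameter. -/

open Matrix Finset

namespace Vale.Agent.P156.H943

open Vale.Agent.P156.H801 (rs ev)

variable {V : Type*} [Fintype V] [DecidableEq V]

/-- The matrix `A` with the rows and columns in `D` replaced by zero. -/
def cutR (A : Matrix V V ℝ) (D : Finset V) : Matrix V V ℝ :=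
  fun x y => if x ∈ D ∨ y ∈ D then 0 else A x y

omit [Fintype V] in
theorem cutR_herm {A : Matrix V V ℝ} (hA : A.IsHermitian) (D : Finset V) :
    (cutR A D).IsHermitian := by
  ext x y
  have h := congrFun (congrFun hA x) y
  simp only [Matrix.conjTranspose_apply, star_trivial] at h
  simp only [Matrix.conjTranspose_apply, star_trivial, cutR, h]
  by_cases hx : x ∈ D <;> by_cases hy : y ∈ D <;> simp [hx, hy]

theorem cutMat_mul {A : Matrix V V ℝ} (hA : A.IsHermitian) (D : Finset V) {z : ℂ}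
    (hz : ∀ i, ((cutR_herm hA D).eigenvalues i : ℂ) - z ≠ 0) :
    cutMat A D z * (Matrix.of fun x y => if x ∈ D ∨ y ∈ D then (if x = y then (1 : ℂ) else 0) else
      rs (cutR A D) z x y) = 1 := by
  ext x y
  rw [Matrix.mul_apply, Matrix.one_apply]
  by_cases hx : x ∈ D
  · have : ∀ w, cutMat A D z x w * (Matrix.of fun x y => if x ∈ D ∨ y ∈ D then
        (if x = y then (1 : ℂ) else 0) else rs (cutR A D) z x y) w y =
        if x = w then (if x = y then 1 else 0) else 0 := by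
      intro w
      simp only [cutMat, hx, true_or, if_true, Matrix.of_apply]
      by_cases hxw : x = w
      · subst hxw; simp [hx]
      · simp [hxw]
    simp only [this, Finset.sum_ite_eq, Finset.mem_univ, if_true]
  · by_cases hy : y ∈ D
    · have hxy : x ≠ y := fun h => hx (h ▸ hy)
      rw [if_neg hxy]
      refine Finset.sum_eq_zero fun w _ => ?_
      simp only [cutMat, hx, false_or, Matrix.of_apply, hy, or_true, if_true]
      by_cases hwy : w = y
      · subst hwy; simp [hy, hxy]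
      · simp [hwy]
    · have h1 := Vale.Agent.P156.H801.isUnit_det (cutR_herm hA D) hz
      have h2 : (((cutR A D).map Complex.ofReal - z • (1 : Matrix V V ℂ)) *
          rs (cutR A D) z) x y = (1 : Matrix V V ℂ) x y := by
        rw [rs, Matrix.mul_nonsing_inv _ h1]
      rw [Matrix.mul_apply, Matrix.one_apply] at h2
      rw [← h2]
      refine Finset.sum_congr rfl fun w _ => ?_
      by_cases hw : w ∈ D
      · have hxw : x ≠ w := fun h => hx (h ▸ hw)
        simp [cutMat, hw, hxw, cutR]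
      · simp only [cutMat, hx, hw, hy, false_or, Matrix.of_apply, if_false, Matrix.sub_apply,
          Matrix.map_apply, cutR, Matrix.smul_apply, smul_eq_mul, Matrix.one_apply]
        by_cases hxw : x = w
        · subst hxw; simp
        · simp [hxw]

theorem cutMat_isUnit {A : Matrix V V ℝ} (hA : A.IsHermitian) (D : Finset V) {z : ℂ}
    (hz : z.im ≠ 0) : IsUnit (cutMat A D z).det :=
  Matrix.isUnit_det_of_right_inverse
    (cutMat_mul hA D (fun i => Vale.Agent.P156.H801.sub_ne_zero_of_im (cutR_herm hA D) hz i))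

theorem resD_eq {A : Matrix V V ℝ} (hA : A.IsHermitian) (D : Finset V) {z : ℂ}
    (hz : z.im ≠ 0) (x y : V) :
    resD A D z x y = if x ∈ D ∨ y ∈ D then (if x = y then 1 else 0) else rs (cutR A D) z x y := by
  have := Matrix.inv_eq_right_inv (cutMat_mul hA D
    (fun i => Vale.Agent.P156.H801.sub_ne_zero_of_im (cutR_herm hA D) hz i))
  rw [resD, this]
  rfl

/-- spectral formula off `D` -/
theorem resD_spec {A : Matrix V V ℝ} (hA : A.IsHermitian) (D : Finset V) {z : ℂ}
    (hz : z.im ≠ 0) {x y : V} (hx : x ∉ D) (hy : y ∉ D) :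
    resD A D z x y = ∑ i, ((ev (cutR_herm hA D) i x * ev (cutR_herm hA D) i y : ℝ) : ℂ) /
      (((cutR_herm hA D).eigenvalues i : ℂ) - z) := by
  rw [resD_eq hA D hz, if_neg (by simp [hx, hy]),
    Vale.Agent.P156.H801.rs_apply (cutR_herm hA D)
      (fun i => Vale.Agent.P156.H801.sub_ne_zero_of_im (cutR_herm hA D) hz i)]

/-! ### Stieltjes sums -/

section hh

variable {ι : Type*} [Fintype ι]

/-- the Stieltjes transform `∑ w_i / (lam_i - z)` (same as `hh`) -/
noncomputable def hh (w lam : ι → ℝ) (z : ℂ) : ℂ := ∑ i, (w i : ℂ) / ((lam i : ℂ) - z)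

theorem hh_im_eq (w lam : ι → ℝ) (z : ℂ) :
    (hh w lam z).im = z.im * ∑ i, w i * (‖(lam i : ℂ) - z‖⁻¹) ^ 2 := by
  unfold hh
  rw [Complex.im_sum, Finset.mul_sum]
  refine Finset.sum_congr rfl fun i _ => ?_
  rw [Complex.div_im, inv_pow, ← Complex.normSq_eq_norm_sq]
  simp only [Complex.ofReal_im, zero_mul, zero_div, Complex.ofReal_re, Complex.sub_im, zero_sub]
  ring

theorem hh_im_nonneg {w : ι → ℝ} (hw : ∀ i, 0 ≤ w i) (lam : ι → ℝ) {z : ℂ} (hz : 0 ≤ z.im) :
    0 ≤ (hh w lam z).im := by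
  rw [hh_im_eq]
  exact mul_nonneg hz (Finset.sum_nonneg fun i _ => mul_nonneg (hw i) (sq_nonneg _))

theorem hh_pick {w : ι → ℝ} (hw : ∀ i, 0 ≤ w i) (lam : ι → ℝ) {z z' : ℂ} (hz : 0 < z.im)
    (hz' : 0 < z'.im) :
    ‖hh w lam z - hh w lam z'‖ ^ 2 ≤ ‖z - z'‖ ^ 2 / (z.im * z'.im) *
      ((hh w lam z).im * (hh w lam z').im) := by
  have hne : ∀ {u : ℂ}, 0 < u.im → ∀ i, (lam i : ℂ) - u ≠ 0 := by
    intro u hu i h
    have := congrArg Complex.im h
    simp at this
    exact hu.ne' this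
  have h1 : hh w lam z - hh w lam z' = ∑ i, ((w i : ℂ) * (z - z')) *
      (((lam i : ℂ) - z)⁻¹ * ((lam i : ℂ) - z')⁻¹) := by
    unfold hh
    rw [← Finset.sum_sub_distrib]
    refine Finset.sum_congr rfl fun i _ => ?_
    have a1 := hne hz i
    have a2 := hne hz' i
    field_simp
    ring
  have h2 : ‖hh w lam z - hh w lam z'‖ ≤ ‖z - z'‖ * ∑ i,
      (√(w i) * ‖(lam i : ℂ) - z‖⁻¹) * (√(w i) * ‖(lam i : ℂ) - z'‖⁻¹) := by
    rw [h1, Finset.mul_sum]
    refine (norm_sum_le _ _).trans (le_of_eq (Finset.sum_congr rfl fun i _ => ?_))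
    rw [norm_mul, norm_mul, norm_mul, norm_inv, norm_inv, Complex.norm_real, Real.norm_eq_abs,
      abs_of_nonneg (hw i)]
    have : √(w i) * √(w i) = w i := Real.mul_self_sqrt (hw i)
    calc w i * ‖z - z'‖ * (‖(lam i : ℂ) - z‖⁻¹ * ‖(lam i : ℂ) - z'‖⁻¹)
        = (√(w i) * √(w i)) * ‖z - z'‖ * (‖(lam i : ℂ) - z‖⁻¹ * ‖(lam i : ℂ) - z'‖⁻¹) := by rw [this]
      _ = _ := by ring
  have h3 := Finset.sum_mul_sq_le_sq_mul_sq Finset.univ
    (fun i => √(w i) * ‖(lam i : ℂ) - z‖⁻¹) (fun i => √(w i) * ‖(lam i : ℂ) - z'‖⁻¹)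
  have h4 : ∀ u : ℂ, 0 < u.im → ∑ i, (√(w i) * ‖(lam i : ℂ) - u‖⁻¹) ^ 2 = (hh w lam u).im / u.im := by
    intro u hu
    rw [hh_im_eq, mul_div_cancel_left₀ _ hu.ne']
    refine Finset.sum_congr rfl fun i _ => ?_
    rw [mul_pow, Real.sq_sqrt (hw i)]
  rw [h4 z hz, h4 z' hz'] at h3
  have h5 : 0 ≤ ∑ i, (√(w i) * ‖(lam i : ℂ) - z‖⁻¹) * (√(w i) * ‖(lam i : ℂ) - z'‖⁻¹) :=
    Finset.sum_nonneg fun i _ => by positivity
  calc ‖hh w lam z - hh w lam z'‖ ^ 2 ≤ (‖z - z'‖ * ∑ i,
      (√(w i) * ‖(lam i : ℂ) - z‖⁻¹) * (√(w i) * ‖(lam i : ℂ) - z'‖⁻¹)) ^ 2 :=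
        pow_le_pow_left₀ (norm_nonneg _) h2 2
    _ = ‖z - z'‖ ^ 2 * (∑ i, (√(w i) * ‖(lam i : ℂ) - z‖⁻¹) *
        (√(w i) * ‖(lam i : ℂ) - z'‖⁻¹)) ^ 2 := by ring
    _ ≤ ‖z - z'‖ ^ 2 * ((hh w lam z).im / z.im * ((hh w lam z').im / z'.im)) := by gcongr
    _ = _ := by field_simp

theorem hh_norm_le {w : ι → ℝ} (hw : ∀ i, 0 ≤ w i) (lam : ι → ℝ) {z : ℂ} (hz : 0 < z.im) :
    ‖hh w lam z‖ ≤ (∑ i, w i) / z.im := by
  unfold hh
  rw [Finset.sum_div]
  refine (norm_sum_le _ _).trans (Finset.sum_le_sum fun i _ => ?_)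
  rw [norm_div, Complex.norm_real, Real.norm_eq_abs, abs_of_nonneg (hw i)]
  have h : z.im ≤ ‖(lam i : ℂ) - z‖ := by
    have := Complex.abs_im_le_norm ((lam i : ℂ) - z)
    simp only [Complex.sub_im, Complex.ofReal_im, zero_sub, abs_neg, abs_of_pos hz] at this
    exact this
  exact div_le_div_of_nonneg_left (hw i) hz h

theorem hh_continuousOn (w lam : ι → ℝ) : ContinuousOn (hh w lam) {z : ℂ | z.im ≠ 0} := by
  unfold hh
  refine continuousOn_finsetSum _ fun i _ => ?_
  refine ContinuousOn.div continuousOn_const (continuousOn_const.sub continuousOn_id) ?_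
  intro z hz h
  have := congrArg Complex.im h
  simp at this
  exact hz this

end hh

/-! ### Diagonal and general entries of `resD` -/

theorem resD_diag {A : Matrix V V ℝ} (hA : A.IsHermitian) (D : Finset V) {z : ℂ}
    (hz : z.im ≠ 0) {x : V} (hx : x ∉ D) :
    resD A D z x x = hh (fun i => ev (cutR_herm hA D) i x ^ 2)
      (cutR_herm hA D).eigenvalues z := by
  rw [resD_spec hA D hz hx hx, hh]
  refine Finset.sum_congr rfl fun i _ => ?_
  rw [sq]

theorem sum_ev_sq {A : Matrix V V ℝ} (hA : A.IsHermitian) (x : V) :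
    ∑ i, ev hA i x ^ 2 = 1 := by
  have := H801.ev_complete hA x x
  simp only [if_true, ← sq] at this
  exact this

theorem resD_diag_of_mem {A : Matrix V V ℝ} (hA : A.IsHermitian) (D : Finset V) {z : ℂ}
    (hz : z.im ≠ 0) {x : V} (hx : x ∈ D) : resD A D z x x = 1 := by
  rw [resD_eq hA D hz]; simp [hx]

theorem resD_im_pos {A : Matrix V V ℝ} (hA : A.IsHermitian) (D : Finset V) {z : ℂ}
    (hz : 0 < z.im) {x : V} (hx : x ∉ D) : 0 < (resD A D z x x).im := by
  rw [resD_diag hA D hz.ne' hx, hh_im_eq]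
  refine mul_pos hz ?_
  have hne : ∀ i, (0:ℝ) < ‖((cutR_herm hA D).eigenvalues i : ℂ) - z‖⁻¹ := fun i =>
    inv_pos.2 (norm_pos_iff.2 (H801.sub_ne_zero_of_im (cutR_herm hA D) hz.ne' i))
  have h0 : ∀ i ∈ (Finset.univ : Finset V), 0 ≤ ev (cutR_herm hA D) i x ^ 2 *
      (‖((cutR_herm hA D).eigenvalues i : ℂ) - z‖⁻¹) ^ 2 := fun i _ => by positivity
  rcases (Finset.sum_nonneg h0).lt_or_eq with h | h
  · exact h
  · exfalso
    have h1 := (Finset.sum_eq_zero_iff_of_nonneg h0).1 h.symm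
    have h2 := sum_ev_sq (cutR_herm hA D) x
    have h3 : ∀ i, ev (cutR_herm hA D) i x ^ 2 = 0 := fun i => by
      rcases mul_eq_zero.1 (h1 i (Finset.mem_univ i)) with h4 | h4
      · exact h4
      · exact absurd h4 (pow_pos (hne i) 2).ne'
    simp [h3] at h2

theorem resD_im_nonneg {A : Matrix V V ℝ} (hA : A.IsHermitian) (D : Finset V) {z : ℂ}
    (hz : 0 < z.im) (x : V) : 0 ≤ (resD A D z x x).im := by
  by_cases hx : x ∈ D
  · rw [resD_diag_of_mem hA D hz.ne' hx]; simp
  · exact (resD_im_pos hA D hz hx).le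

theorem resD_norm_le {A : Matrix V V ℝ} (hA : A.IsHermitian) (D : Finset V) {z : ℂ}
    (hz : 0 < z.im) {x : V} (hx : x ∉ D) : ‖resD A D z x x‖ ≤ 1 / z.im := by
  rw [resD_diag hA D hz.ne' hx]
  refine (hh_norm_le (fun i => sq_nonneg _) _ hz).trans ?_
  rw [sum_ev_sq]

/-- Pick inequality for the diagonal entries. -/
theorem resD_pick {A : Matrix V V ℝ} (hA : A.IsHermitian) (D : Finset V) {z z' : ℂ}
    (hz : 0 < z.im) (hz' : 0 < z'.im) (x : V) :
    ‖resD A D z x x - resD A D z' x x‖ ^ 2 ≤ ‖z - z'‖ ^ 2 / (z.im * z'.im) *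
      ((resD A D z x x).im * (resD A D z' x x).im) := by
  by_cases hx : x ∈ D
  · rw [resD_diag_of_mem hA D hz.ne' hx, resD_diag_of_mem hA D hz'.ne' hx]; simp
  · rw [resD_diag hA D hz.ne' hx, resD_diag hA D hz'.ne' hx]
    exact hh_pick (fun i => sq_nonneg _) _ hz hz'

theorem resD_continuousOn {A : Matrix V V ℝ} (hA : A.IsHermitian) (D : Finset V) (x y : V) :
    ContinuousOn (fun z => resD A D z x y) {z : ℂ | z.im ≠ 0} := by
  by_cases h : x ∈ D ∨ y ∈ D
  · refine (continuousOn_const (c := if x = y then (1:ℂ) else 0)).congr fun z hz => ?_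
    simp only
    rw [resD_eq hA D hz, if_pos h]
  · push Not at h
    have : ContinuousOn (fun z : ℂ => ∑ i, ((ev (cutR_herm hA D) i x *
        ev (cutR_herm hA D) i y : ℝ) : ℂ) / (((cutR_herm hA D).eigenvalues i : ℂ) - z))
        {z : ℂ | z.im ≠ 0} := by
      refine continuousOn_finsetSum _ fun i _ => ?_
      refine ContinuousOn.div continuousOn_const (continuousOn_const.sub continuousOn_id) ?_
      intro z hz h'
      have := congrArg Complex.im h'
      simp at this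
      exact hz this
    refine this.congr fun z hz => ?_
    simp only
    rw [resD_spec hA D hz h.1 h.2]

end Vale.Agent.P156.H943
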