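import Vale.Agent.P156.H943.Cut
import Vale.Agent.P156.H613.C8
import Vale.Agent.P156.H490.Prob

/-! Measurability in the energy and boundedness of the averages over graphs. -/

open MeasureTheory Filter Topology Matrix Finset

namespace Vale.Agent.P156.H943

open _root_.P156.H613 (zz Cls zz_im)
open Vale.Agent.P156.H490 (avg_mono avg_nonneg avg_le_of_le avg_add avg_sub avg_mul_left
  avg_congr abs_avg_le)

variable {n : ℕ}

theorem continuous_resD_zz {A : Matrix (Fin n) (Fin n) ℝ} (hA : A.IsHermitian)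
    (D : Finset (Fin n)) (x y : Fin n) {η : ℝ} (hη : 0 < η) :
    Continuous (fun E : ℝ => resD A D (zz E η) x y) := by
  have h := resD_continuousOn hA D x y
  have h2 : Continuous (fun E : ℝ => zz E η) := by
    unfold _root_.P156.H613.zz
    fun_prop
  exact h.comp_continuous h2 (fun E => by simpa using hη.ne')

theorem continuous_hc (G : SimpleGraph (Fin n)) (e : Fin n × Fin n) {η : ℝ} (hη : 0 < η) :
    Continuous (fun E : ℝ => hc G (zz E η) e) :=
  continuous_resD_zz (adj_isHermitian G) _ _ _ hη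

theorem continuous_leadMat {d K : ℕ} (ω : SimpleGraph (Fin n) × StarPos n d K)
    (a b : Fin K × Fin d) {η : ℝ} (hη : 0 < η) :
    Continuous (fun E : ℝ => leadMat ω (zz E η) a b) :=
  continuous_resD_zz (adj_isHermitian ω.1) _ _ _ hη

theorem continuous_starMat {d K : ℕ} (ω : SimpleGraph (Fin n) × StarPos n d K)
    (a b : Fin K × Option (Fin d)) {η : ℝ} (hη : 0 < η) :
    Continuous (fun E : ℝ => starMat ω (zz E η) a b) :=
  continuous_resD_zz (adj_isHermitian ω.1) _ _ _ hη

theorem hc_im_nonneg (G : SimpleGraph (Fin n)) {z : ℂ} (hz : 0 < z.im) (e : Fin n × Fin n) :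
    0 ≤ (hc G z e).im := resD_im_nonneg (adj_isHermitian G) _ hz _

theorem hc_im_pos (G : SimpleGraph (Fin n)) {z : ℂ} (hz : 0 < z.im) {e : Fin n × Fin n}
    (he : e.1 ≠ e.2) : 0 < (hc G z e).im :=
  resD_im_pos (adj_isHermitian G) _ hz (by simpa using he.symm)

theorem measurable_F_hc {F : ℝ → ℂ → ℝ} (hF : Measurable (Function.uncurry F))
    (G : SimpleGraph (Fin n)) (e : Fin n × Fin n) {η : ℝ} (hη : 0 < η) :
    Measurable (fun E : ℝ => F E (hc G (zz E η) e)) :=
  hF.comp (measurable_id.prodMk (continuous_hc G e hη).measurable)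

theorem measurable_zz (η : ℝ) : Measurable (fun E : ℝ => zz E η) := by
  unfold _root_.P156.H613.zz; fun_prop

theorem measurable_wavg {p : Fin n × Fin n → ℝ} {f : ℝ → Fin n × Fin n → ℝ}
    (hf : ∀ e, Measurable (fun E => f E e)) : Measurable (fun E => wavg p (f E)) := by
  unfold wavg
  exact Finset.measurable_fun_sum _ fun e _ => (hf e).const_mul _

theorem measurable_dfct {d : ℕ} {F : ℝ → ℂ → ℝ} (hF : Measurable (Function.uncurry F))
    (G : SimpleGraph (Fin n)) {η : ℝ} (hη : 0 < η) :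
    Measurable (fun E : ℝ => dfct d G (zz E η) (F E)) := by
  unfold dfct dfctW
  refine Measurable.sub (measurable_wavg fun e => measurable_F_hc hF G e hη) ?_
  unfold wavgq
  refine Finset.measurable_fun_sum _ fun t _ => Measurable.const_mul ?_ _
  refine hF.comp (measurable_id.prodMk ?_)
  refine Measurable.div measurable_const ((measurable_zz η).add ?_)
  exact Finset.measurable_fun_sum _ fun k _ => (continuous_hc G _ hη).measurable

theorem wavgq_sum_one {ι : Type*} [Fintype ι] {p : ι → ℝ} (hp1 : ∑ i, p i = 1) (q : ℕ) :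
    ∑ t : Fin q → ι, ∏ l, p (t l) = 1 := _root_.P156.H613.tuple_sum_one hp1 q

theorem abs_wavg_le {ι : Type*} [Fintype ι] {p : ι → ℝ} (hp : ∀ i, 0 ≤ p i) (hp1 : ∑ i, p i = 1)
    {F : ι → ℝ} {B : ℝ} (hF : ∀ i, p i ≠ 0 → |F i| ≤ B) : |wavg p F| ≤ B := by
  unfold wavg
  calc |∑ i, p i * F i| ≤ ∑ i, |p i * F i| := Finset.abs_sum_le_sum_abs _ _
    _ ≤ ∑ i, p i * B := by
        refine Finset.sum_le_sum fun i _ => ?_
        rw [abs_mul, abs_of_nonneg (hp i)]
        by_cases hi : p i = 0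
        · simp [hi]
        · exact mul_le_mul_of_nonneg_left (hF i hi) (hp i)
    _ = B := by rw [← Finset.sum_mul, hp1, one_mul]

theorem abs_wavgq_le {ι : Type*} [Fintype ι] {p : ι → ℝ} (hp : ∀ i, 0 ≤ p i)
    (hp1 : ∑ i, p i = 1) {q : ℕ} {F : (Fin q → ι) → ℝ} {B : ℝ}
    (hF : ∀ t, (∀ k, p (t k) ≠ 0) → |F t| ≤ B) : |wavgq q p F| ≤ B := by
  unfold wavgq
  calc |∑ t : Fin q → ι, (∏ k, p (t k)) * F t| ≤ ∑ t : Fin q → ι, |(∏ k, p (t k)) * F t| :=
        Finset.abs_sum_le_sum_abs _ _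
    _ ≤ ∑ t : Fin q → ι, (∏ k, p (t k)) * B := by
        refine Finset.sum_le_sum fun t _ => ?_
        have h0 : 0 ≤ ∏ k, p (t k) := Finset.prod_nonneg fun k _ => hp _
        rw [abs_mul, abs_of_nonneg h0]
        by_cases hi : ∀ k, p (t k) ≠ 0
        · exact mul_le_mul_of_nonneg_left (hF t hi) h0
        · push Not at hi
          obtain ⟨k, hk⟩ := hi
          rw [Finset.prod_eq_zero (Finset.mem_univ k) hk]
          simp
    _ = B := by rw [← Finset.sum_mul, wavgq_sum_one hp1 q, one_mul]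

theorem abs_dfct_le {d : ℕ} (hd : d ≠ 0) (hn : n ≠ 0) {G : SimpleGraph (Fin n)}
    (hG : G ∈ regularGraphs n d) {z : ℂ} (hz : 0 < z.im) {F : ℂ → ℝ}
    (hF : ∀ h : ℂ, 0 < h.im → |F h| ≤ 1) : |dfct d G z F| ≤ 2 := by
  unfold dfct dfctW
  have hp := _root_.P156.H613.ew_nonneg (d := d) G
  have hp1 := _root_.P156.H613.ew_sum hG hn hd
  have h1 : |wavg (ew d G) (fun e => F (hc G z e))| ≤ 1 :=
    abs_wavg_le hp hp1 fun e he => hF _ (hc_im_pos G hz (_root_.P156.H613.ew_ne_zero he))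
  have h2 : |wavgq (d - 1) (ew d G) (fun t => F (-1 / (z + ∑ k, hc G z (t k))))| ≤ 1 := by
    refine abs_wavgq_le hp hp1 fun t ht => hF _ ?_
    apply _root_.P156.H613.im_neg_inv_pos
    rw [Complex.add_im, Complex.im_sum]
    have : 0 ≤ ∑ k, (hc G z (t k)).im := Finset.sum_nonneg fun k _ => hc_im_nonneg G hz _
    linarith
  have := abs_sub (wavg (ew d G) (fun e => F (hc G z e)))
    (wavgq (d - 1) (ew d G) (fun t => F (-1 / (z + ∑ k, hc G z (t k)))))
  linarith

theorem measurable_avg {α : Type*} (s : Finset α) {f : ℝ → α → ℝ}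
    (hf : ∀ ω ∈ s, Measurable (fun E => f E ω)) : Measurable (fun E => avg s (f E)) := by
  unfold avg
  exact (Finset.measurable_fun_sum _ hf).div_const _

theorem intervalIntegrable_of_bdd {f : ℝ → ℝ} (hf : Measurable f) {B a b : ℝ}
    (hB : ∀ E ∈ Set.uIcc a b, |f E| ≤ B) : IntervalIntegrable f volume a b := by
  have : IntervalIntegrable (fun _ : ℝ => B) volume a b := intervalIntegrable_const
  refine this.mono_fun hf.aestronglyMeasurable ?_
  refine (ae_restrict_iff' measurableSet_uIoc).2 (Filter.Eventually.of_forall fun E hE => ?_)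
  have h1 := hB E (Set.uIoc_subset_uIcc hE)
  show ‖f E‖ ≤ ‖B‖
  rw [Real.norm_eq_abs, Real.norm_eq_abs]
  exact h1.trans (le_abs_self B)

theorem intervalIntegrable_avg {α : Type*} (s : Finset α) {f : ℝ → α → ℝ}
    (hf : ∀ ω ∈ s, Measurable (fun E => f E ω)) {B a b : ℝ} (hB0 : 0 ≤ B)
    (hB : ∀ E ∈ Set.uIcc a b, ∀ ω ∈ s, |f E ω| ≤ B) :
    IntervalIntegrable (fun E => avg s (f E)) volume a b := by
  refine intervalIntegrable_of_bdd (measurable_avg s hf) (B := B) fun E hE => ?_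
  exact (abs_avg_le _ _).trans (avg_le_of_le hB0 (hB E hE))

end Vale.Agent.P156.H943
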