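import Vale.Agent.P156.H943.Meas
import Vale.Agent.P156.H613.BridgeM
import Vale.Agent.P156.H613.TTest
import Vale.Agent.P156.H992.Contract

/-! Pointwise (graph and energy) bound of the microscopic second moment by squares of defects of the
quenched recursion. -/

open MeasureTheory Filter Topology Matrix Finset

namespace Vale.Agent.P156.H943

open _root_.P156.H613 (zz zz_im Cls C8F C8c C8F_cls base_T_graph ew_nonneg ew_sum C7_graph
  min_one_norm_sub_le_T C8_graph mz isTree_eq_mz)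
open _root_.P156.Gap (T vv TE TF TE_testF TE_measurable scales_output C9' C9'_pos etaStar
  deltaStar root_mE Root)

theorem abs_le_add_sq {x δ : ℝ} (hδ : 0 < δ) : |x| ≤ δ + x ^ 2 / δ := by
  have h1 : 2 * |x| ≤ δ + x ^ 2 / δ := by
    rw [← sub_nonneg]
    have : δ + x ^ 2 / δ - 2 * |x| = (δ - |x|) ^ 2 / δ := by
      field_simp
      rw [sub_sq, sq_abs]
      ring
    rw [this]
    positivity
  linarith [abs_nonneg x]

/-- coefficient of the base scale -/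
noncomputable def Ab (d : ℕ) (c : ℝ) : ℝ := 2 * (((d - 1 : ℕ) + 1) / c ^ 2) ^ 2

theorem Ab_pos {d : ℕ} {c : ℝ} (hc : 0 < c) : 0 < Ab d c := by
  unfold Ab; positivity

theorem base_bound {d : ℕ} (hd : 2 ≤ d) {η R : ℝ} (hη : 0 < η) {n : ℕ} (hn : n ≠ 0)
    {G : SimpleGraph (Fin n)} (hG : G ∈ regularGraphs n d) {E : ℝ} (hE : |E| ≤ R) {m : ℂ}
    (h : Root (d - 1) E m) {c : ℝ} (hc0 : 0 < c) (hcm : c ≤ m.im) :
    wavg (ew d G) (fun e => ‖T m (hc G (zz E η) e)‖ ^ 2) ≤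
      Ab d c * (C8c d η R * |dfct d G (zz E η) (C8F d η R E)| + (η / c) ^ 2) := by
  have hbase := base_T_graph hd hη hn hG hE h
  have h0 := C8_graph hd hη hn hG hE
  have h1 : 0 ≤ wavg (ew d G) (fun e => ‖hc G (zz E η) e - mz (d - 1) (zz E η)‖ ^ 2) :=
    Finset.sum_nonneg fun e _ => mul_nonneg (ew_nonneg G e) (by positivity)
  have h2 : 0 ≤ C8c d η R * |dfct d G (zz E η) (C8F d η R E)| := h1.trans h0
  refine hbase.trans ?_
  have h3 : 0 < m.im := h.im_pos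
  have h4 : 0 ≤ η / m.im := by positivity
  unfold Ab
  gcongr

theorem pointwise {d : ℕ} (hd : 3 ≤ d) {a b c R : ℝ} (ha : -(2 * Real.sqrt ((d : ℝ) - 1)) < a)
    (hb : b < 2 * Real.sqrt ((d : ℝ) - 1)) (hc0 : 0 < c)
    (hcm : ∀ E ∈ Set.Icc a b, c ≤ (mE d E).im) {E : ℝ} (hE : E ∈ Set.Icc a b) (hR : |E| ≤ R)
    {n : ℕ} (hn : n ≠ 0) {G : SimpleGraph (Fin n)} (hG : G ∈ regularGraphs n d)
    {J : ℕ} {η : ℕ → ℝ} (hηpos : ∀ j, 0 < η j) (hηle : ∀ j, j ≤ J → η j ≤ etaStar (d - 1) c)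
    (hηr : ∀ j, η (j + 1) ≤ η j ∧ η j ≤ (1 + deltaStar (d - 1) c) * η (j + 1))
    {δ δ' : ℝ} (hδ : 0 < δ) (hδ' : 0 < δ') :
    wavg (ew d G) (fun e => ‖T (mE d E) (hc G (zz E (η J)) e)‖ ^ 2) ≤
      C9' d c * (δ + η J ^ 2 + Ab d c * (C8c d (η 0) R * δ' + (η 0 / c) ^ 2)) +
      C9' d c * (1 / δ + 1) * (∑ j ∈ range (J + 1), ∑ k : Fin 3,
        dfct d G (zz E (η j)) (TE d c a b k E) ^ 2) +
      C9' d c * Ab d c * |C8c d (η 0) R| / δ' * dfct d G (zz E (η 0)) (C8F d (η 0) R E) ^ 2 := by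
  have hm : Root (d - 1) E (mE d E) := root_mE (by omega) (abs_lt.mpr
    ⟨lt_of_lt_of_le ha hE.1, lt_of_le_of_lt hE.2 hb⟩)
  have hC := C9'_pos (d := d) hc0
  have hA := Ab_pos (d := d) hc0
  have key := scales_output hd ha hb hc0 hcm hE (ew_nonneg (d := d) G)
    (ew_sum hG hn (by omega)) (J := J) (h := fun j => hc G (zz E (η j))) (η := η)
    (fun j _ e => hc_im_nonneg G (by simpa using hηpos j) e) (fun j _ => hηpos j) hηle
    (fun j _ => (hηr j).1) (fun j _ => (hηr j).2)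
    (fun j _ e => C7_graph G E (hηpos j) (hηpos (j + 1)) e)
  have hbase := base_bound (R := R) (by omega) (hηpos 0) hn hG hR hm hc0 (hcm E hE)
  have e0 : ∀ j, vv (ew d G) (mE d E) (hc G (zz E (η j))) =
      wavg (ew d G) (fun e => ‖T (mE d E) (hc G (zz E (η j)) e)‖ ^ 2) := fun j => rfl
  have e1 : ∀ j k, dfctW (d - 1) (ew d G) (hc G (zz E (η j))) ((E : ℂ) + η j * Complex.I)
      (TE d c a b k E) = dfct d G (zz E (η j)) (TE d c a b k E) := fun j k => rfl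
  simp only [e0, e1] at key
  set D : ℕ → Fin 3 → ℝ := fun j k => dfct d G (zz E (η j)) (TE d c a b k E) with hD
  set Db : ℝ := dfct d G (zz E (η 0)) (C8F d (η 0) R E) with hDb
  have a1 : |D J 0| ≤ δ + D J 0 ^ 2 / δ := abs_le_add_sq hδ
  have a2 : |Db| ≤ δ' + Db ^ 2 / δ' := abs_le_add_sq hδ'
  have hC8 : C8c d (η 0) R * |Db| ≤ C8c d (η 0) R * δ' + |C8c d (η 0) R| / δ' * Db ^ 2 := by
    have hC8n : 0 ≤ C8c d (η 0) R := by
      have hR0 : 0 ≤ R := (abs_nonneg E).trans hR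
      unfold _root_.P156.H613.C8c
      have h1 := _root_.P156.H613.Cbd_pos (q := d - 1) (by omega) (hηpos 0) hR0
        (_root_.P156.H613.hlow_pos (d := d) (hηpos 0) hR0)
      have h2 := hηpos 0
      positivity
    rw [abs_of_nonneg hC8n]
    calc C8c d (η 0) R * |Db| ≤ C8c d (η 0) R * (δ' + Db ^ 2 / δ') := by gcongr
      _ = _ := by ring
  have hsum : ∑ j ∈ range (J + 1), ∑ k : Fin 3, D j k ^ 2 =
      (∑ j ∈ range J, ∑ k : Fin 3, D j k ^ 2) + (D J 0 ^ 2 + D J 1 ^ 2 + D J 2 ^ 2) := by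
    rw [Finset.sum_range_succ, Fin.sum_univ_three (fun k => D J k ^ 2)]
  have hS0 : 0 ≤ ∑ j ∈ range J, ∑ k : Fin 3, D j k ^ 2 :=
    Finset.sum_nonneg fun j _ => Finset.sum_nonneg fun k _ => sq_nonneg _
  change _ ≤ C9' d c * (δ + η J ^ 2 + Ab d c * (C8c d (η 0) R * δ' + (η 0 / c) ^ 2)) +
      C9' d c * (1 / δ + 1) * (∑ j ∈ range (J + 1), ∑ k : Fin 3, D j k ^ 2) +
      C9' d c * Ab d c * |C8c d (η 0) R| / δ' * Db ^ 2
  rw [hsum]
  change _ ≤ C9' d c * (|D J 0| + D J 1 ^ 2 + D J 2 ^ 2 + η J ^ 2) +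
    C9' d c * (wavg (ew d G) (fun e => ‖T (mE d E) (hc G (zz E (η 0)) e)‖ ^ 2) +
      ∑ j ∈ range J, ∑ k : Fin 3, D j k ^ 2) at key
  refine key.trans ?_
  have hb1 : wavg (ew d G) (fun e => ‖T (mE d E) (hc G (zz E (η 0)) e)‖ ^ 2) ≤
      Ab d c * (C8c d (η 0) R * δ' + |C8c d (η 0) R| / δ' * Db ^ 2 + (η 0 / c) ^ 2) :=
    hbase.trans (by gcongr)
  generalize (∑ j ∈ range J, ∑ k : Fin 3, D j k ^ 2) = S at hS0 ⊢
  generalize wavg (ew d G) (fun e => ‖T (mE d E) (hc G (zz E (η 0)) e)‖ ^ 2) = V at hb1 ⊢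
  generalize |C8c d (η 0) R| = K at hb1 ⊢
  generalize C8c d (η 0) R = K' at hb1 ⊢
  have hx0 := sq_nonneg (D J 0)
  have hx1 := sq_nonneg (D J 1)
  have hx2 := sq_nonneg (D J 2)
  have hinv : 0 < 1 / δ := by positivity
  calc C9' d c * (|D J 0| + D J 1 ^ 2 + D J 2 ^ 2 + η J ^ 2) + C9' d c * (V + S)
      ≤ C9' d c * ((δ + D J 0 ^ 2 / δ) + D J 1 ^ 2 + D J 2 ^ 2 + η J ^ 2) +
        C9' d c * (Ab d c * (K' * δ' + K / δ' * Db ^ 2 + (η 0 / c) ^ 2) + S) := by gcongr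
    _ = C9' d c * (δ + η J ^ 2 + Ab d c * (K' * δ' + (η 0 / c) ^ 2)) +
        C9' d c * (D J 0 ^ 2 * (1 / δ) + D J 1 ^ 2 + D J 2 ^ 2 + S) +
        C9' d c * Ab d c * K / δ' * Db ^ 2 := by ring
    _ ≤ C9' d c * (δ + η J ^ 2 + Ab d c * (K' * δ' + (η 0 / c) ^ 2)) +
        C9' d c * ((1 / δ + 1) * (S + (D J 0 ^ 2 + D J 1 ^ 2 + D J 2 ^ 2))) +
        C9' d c * Ab d c * K / δ' * Db ^ 2 := by
          have : D J 0 ^ 2 * (1 / δ) + D J 1 ^ 2 + D J 2 ^ 2 + S ≤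
              (1 / δ + 1) * (S + (D J 0 ^ 2 + D J 1 ^ 2 + D J 2 ^ 2)) := by
            nlinarith [mul_nonneg hinv.le hS0, mul_nonneg hinv.le hx1, mul_nonneg hinv.le hx2]
          gcongr
    _ = _ := by ring

end Vale.Agent.P156.H943
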